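import Vale.Agent.P054.T2.H416.GenLin
import Vale.Agent.P054.T2.H588.Main
import Vale.Agent.P054.T2.H269.S1

/-!
Helper file for P054 (rows C2, C3): the isometry form of the generic orthogonal matrix and the
two genericity hypotheses of the count of edges on a leaf.
-/

namespace Vale.Agent.P054.T2.H416

open Matrix Module
open Vale.Agent.P054.T2.H588 (PG InK PV Tr A1)
open Vale.Agent.P054.T2.H686 (E zt mu edges dists mem_edges mem_edges_snd_ne)
open Vale.Agent.P054.T2.H269 (onLine)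

variable {n : ℕ}

/-- Coordinates of a point of Euclidean space. -/
def cv (x : E n) : Fin (n + 1) → ℝ := fun j => x j

theorem cv_sub (x y : E n) : cv (x - y) = cv x - cv y := by ext i; simp [cv]

theorem cv_injective : Function.Injective (cv : E n → Fin (n + 1) → ℝ) := by
  intro x y h
  ext i
  exact congrFun h i

/-- Coordinates of a pair of points. -/
def pv (s : E n × E n) : PV (n + 1) := (cv s.1, cv s.2)

theorem norm_sq_cv (x : E n) : ‖x‖ ^ 2 = cv x ⬝ᵥ cv x := by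
  rw [EuclideanSpace.norm_sq_eq]
  simp only [cv, dotProduct, Real.norm_eq_abs, sq_abs]
  exact Finset.sum_congr rfl fun i _ => by ring

/-- `B` is the isometry with matrix `M`. -/
def IsMat (B : E n ≃ₗᵢ[ℝ] E n) (M : Matrix (Fin (n + 1)) (Fin (n + 1)) ℝ) : Prop :=
  ∀ x : E n, cv (B x) = M *ᵥ cv x

/-- The isometry of an orthogonal matrix. -/
theorem exists_iso (M : Matrix (Fin (n + 1)) (Fin (n + 1)) ℝ) (hM : M * Mᵀ = 1) :
    ∃ B : E n ≃ₗᵢ[ℝ] E n, IsMat B M := by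
  have hM' : Mᵀ * M = 1 := mul_eq_one_comm.1 hM
  let f : E n →ₗ[ℝ] E n := Matrix.toEuclideanLin M
  have hf : ∀ x, cv (f x) = M *ᵥ cv x := by
    intro x
    ext i
    simp [f, cv, Matrix.toEuclideanLin]
    rfl
  have hn : ∀ x, ‖f x‖ = ‖x‖ := by
    intro x
    have h1 : ‖f x‖ ^ 2 = ‖x‖ ^ 2 := by
      rw [norm_sq_cv, norm_sq_cv, hf, dot_mulVec_mulVec hM']
    exact (pow_left_inj₀ (norm_nonneg _) (norm_nonneg _) two_ne_zero).1 h1
  let g : E n →ₗᵢ[ℝ] E n := ⟨f, hn⟩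
  exact ⟨g.toLinearIsometryEquiv rfl, fun x => hf x⟩

theorem zt_fst {B : E n ≃ₗᵢ[ℝ] E n} {M : Matrix (Fin (n + 1)) (Fin (n + 1)) ℝ} (h : IsMat B M)
    (s : E n × E n) : (zt B s).1 = (pv s).1 - M *ᵥ (pv s).2 := by
  ext i
  have := congrFun (h s.2) i
  change s.1 i - B s.2 i = _
  rw [Pi.sub_apply]
  change _ = s.1 i - (M *ᵥ cv s.2) i
  rw [← this]
  rfl

theorem zt_snd {B : E n ≃ₗᵢ[ℝ] E n} {M : Matrix (Fin (n + 1)) (Fin (n + 1)) ℝ} (h : IsMat B M)
    (s : E n × E n) : (zt B s).2 = (pv s).1 + M *ᵥ (pv s).2 := by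
  ext i
  have := congrFun (h s.2) i
  change s.1 i + B s.2 i = _
  rw [Pi.add_apply]
  change _ = s.1 i + (M *ᵥ cv s.2) i
  rw [← this]
  rfl

/-- The field generated by the coordinates of the points. -/
noncomputable def coordField (P : Finset (E n)) : Subfield ℝ :=
  Subfield.closure {a | ∃ x ∈ P, ∃ i, a = x i}

instance coordField_countable (P : Finset (E n)) : Countable (coordField P) := by
  have h1 : ({a | ∃ x ∈ P, ∃ i, a = x i} : Set ℝ).Countable := by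
    have : ({a | ∃ x ∈ P, ∃ i, a = x i} : Set ℝ)
        = ⋃ x ∈ (P : Set (E n)), Set.range (fun i => x i) := by
      ext a
      simp only [Set.mem_ofPred_eq, Set.mem_iUnion, Finset.mem_coe, Set.mem_range, exists_prop]
      constructor
      · rintro ⟨x, hx, i, rfl⟩
        exact ⟨x, hx, i, rfl⟩
      · rintro ⟨x, hx, i, h⟩
        exact ⟨x, hx, i, h.symm⟩
    rw [this]
    exact (Finset.countable_toSet P).biUnion fun x _ => Set.countable_range _
  have h2 := Subfield.cardinalMk_closure_le_max ({a | ∃ x ∈ P, ∃ i, a = x i} : Set ℝ)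
  exact Cardinal.mk_le_aleph0_iff.1
    (h2.trans (max_le (Cardinal.mk_le_aleph0_iff.2 h1.to_subtype) le_rfl))

theorem inK_of_mem {P : Finset (E n)} {s : E n × E n} (h1 : s.1 ∈ P) (h2 : s.2 ∈ P) :
    InK (coordField P) (pv s) :=
  ⟨fun i => Subfield.subset_closure ⟨s.1, h1, i, rfl⟩,
    fun i => Subfield.subset_closure ⟨s.2, h2, i, rfl⟩⟩

theorem InK_sub {k : Subfield ℝ} {d : ℕ} {s r : PV d} (hs : InK k s) (hr : InK k r) :
    InK k (s - r) :=
  ⟨fun i => sub_mem (hs.1 i) (hr.1 i), fun i => sub_mem (hs.2 i) (hr.2 i)⟩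

/-- The derivation half of genericity. -/
def GenD (k : Subfield ℝ) {d : ℕ} (M : Matrix (Fin d) (Fin d) ℝ) : Prop :=
  ∀ O : Matrix (Fin d) (Fin d) ℝ, Oᵀ = -O → ∃ D : Derivation k ℝ ℝ, ∀ i j, D (M i j) = (M * O) i j

/-- (C3), first half, in coordinates: the first coordinate of `w₁ - M w₂` is not zero. -/
theorem first_coord_ne {k : Subfield ℝ} {d : ℕ} {M : Matrix (Fin (d + 2)) (Fin (d + 2)) ℝ}
    (hM : Gen k M) {w : PV (d + 2)} (hw : InK k w) (h2 : w.2 ≠ 0) (i₀ : Fin (d + 2)) :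
    (w.1 - M *ᵥ w.2) i₀ ≠ 0 := by
  intro h0
  set e : Fin (d + 2) → ℝ := Pi.single i₀ 1 with he
  set c := Mᵀ *ᵥ e with hc
  have hMc : M *ᵥ c = e := by rw [hc, mulVec_mulVec, hM.1, one_mulVec]
  have hw1 : ∀ D : Derivation k ℝ ℝ, dv D w.1 = 0 := fun D => dv_eq_zero_of_mem D _ hw.1
  have hw2 : ∀ D : Derivation k ℝ ℝ, dv D w.2 = 0 := fun D => dv_eq_zero_of_mem D _ hw.2
  have he0 : ∀ D : Derivation k ℝ ℝ, dv D e = 0 := by
    intro D
    ext l
    rw [dv_apply, he]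
    by_cases hl : l = i₀
    · subst hl; simp
    · simp [hl]
  have hdot : ∀ v : Fin (d + 2) → ℝ, e ⬝ᵥ v = v i₀ := by
    intro v
    rw [he, single_dotProduct, one_mul]
  have h3 : ∀ v, e ⬝ᵥ (M *ᵥ v) = c ⬝ᵥ v := by
    intro v
    rw [hc, dotProduct_mulVec, mulVec_transpose]
  have h4 : ∀ O : Matrix (Fin (d + 2)) (Fin (d + 2)) ℝ, Oᵀ = -O → c ⬝ᵥ (O *ᵥ w.2) = 0 := by
    intro O hO
    obtain ⟨D, hD⟩ := hM.exists_der O hO
    have h5 : dv D (w.1 - M *ᵥ w.2) i₀ = 0 := by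
      rw [dv_apply, h0, map_zero]
    have h6 : dv D (w.1 - M *ᵥ w.2) = -((M * O) *ᵥ w.2) := by
      have : dv D (w.1 - M *ᵥ w.2) = dv D w.1 - dv D (M *ᵥ w.2) := by
        ext l; simp [dv]
      rw [this, hw1, dv_mulVec, hD, hw2, mulVec_zero, add_zero, zero_sub]
    rw [h6, Pi.neg_apply, neg_eq_zero, ← hdot ((M * O) *ᵥ w.2), ← mulVec_mulVec, h3] at h5
    exact h5
  -- hence `c` is a multiple of `w.2`
  have hxx : w.2 ⬝ᵥ w.2 ≠ 0 := fun h => h2 (dotProduct_self_eq_zero.1 h)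
  have h7 : ∃ l : ℝ, c = l • w.2 := by
    refine ⟨(c ⬝ᵥ w.2) / (w.2 ⬝ᵥ w.2), ?_⟩
    ext i
    have h8 := h4 _ (skew_vec (Pi.single i 1) w.2)
    rw [skew_vec_mulVec, dotProduct_sub, dotProduct_smul, dotProduct_smul, smul_eq_mul,
      smul_eq_mul, dotProduct_single, mul_one, single_dotProduct, one_mul] at h8
    rw [Pi.smul_apply, smul_eq_mul]
    field_simp
    linarith
  obtain ⟨l, hl⟩ := h7
  have hl0 : l ≠ 0 := by
    rintro rfl
    rw [zero_smul] at hl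
    rw [hl, mulVec_zero] at hMc
    have := congrFun hMc i₀
    rw [he] at this
    simp at this
  have hMw : M *ᵥ w.2 = l⁻¹ • e := by
    rw [← hMc, hl, mulVec_smul, smul_smul, inv_mul_cancel₀ hl0, one_smul]
  -- differentiate again
  have h9 : ∀ O : Matrix (Fin (d + 2)) (Fin (d + 2)) ℝ, Oᵀ = -O → O *ᵥ w.2 = 0 := by
    intro O hO
    obtain ⟨D, hD⟩ := hM.exists_der O hO
    have h10 := congrArg (dv D) hMw
    rw [dv_mulVec, hD, hw2, mulVec_zero, add_zero, dv_smul, he0, smul_zero, zero_add,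
      ← mulVec_mulVec] at h10
    -- `M (O w) = D(l⁻¹) e`, hence `O w = D(l⁻¹) c`
    have h11 := congrArg (fun v => Mᵀ *ᵥ v) h10
    simp only [mulVec_mulVec, mulVec_smul] at h11
    rw [← Matrix.mul_assoc, hM.tmul, Matrix.one_mul, ← hc] at h11
    have h12 := h4 O hO
    rw [h11, dotProduct_smul, smul_eq_mul] at h12
    have hcc : c ⬝ᵥ c ≠ 0 := by
      intro h
      have := dotProduct_self_eq_zero.1 h
      rw [hl] at this
      rcases smul_eq_zero.1 this with h' | h'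
      · exact hl0 h'
      · exact h2 h'
    rw [h11, (mul_eq_zero.1 h12).resolve_right hcc, zero_smul]
  -- a vector orthogonal to `w.2`
  have h13 : ∀ u : Fin (d + 2) → ℝ, (w.2 ⬝ᵥ w.2) • u = (u ⬝ᵥ w.2) • w.2 := by
    intro u
    have h14 := h9 _ (skew_vec u w.2)
    rw [skew_vec_mulVec, sub_eq_zero] at h14
    exact h14
  have h15 : finrank ℝ (⊤ : Submodule ℝ (Fin (d + 2) → ℝ)) ≤ 1 := by
    refine finrank_le_one_of_line ⊤ w.2 fun u _ => ⟨(w.2 ⬝ᵥ w.2)⁻¹ * (u ⬝ᵥ w.2), ?_⟩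
    rw [mul_smul, ← h13, smul_smul, inv_mul_cancel₀ hxx, one_smul]
  rw [finrank_top, finrank_fin_fun] at h15
  omega

/-- (C3), first half. -/
theorem zeta_zero_ne {k : Subfield ℝ} {m : ℕ} {B : E (m + 1) ≃ₗᵢ[ℝ] E (m + 1)}
    {M : Matrix (Fin (m + 1 + 1)) (Fin (m + 1 + 1)) ℝ}
    (hBM : IsMat B M) (hM : Gen k M) {s r : E (m + 1) × E (m + 1)} (hs : InK k (pv s))
    (hr : InK k (pv r)) (h2 : s.2 ≠ r.2) : (zt B s).1 0 ≠ (zt B r).1 0 := by
  have h := first_coord_ne hM (InK_sub hs hr) (by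
    intro h
    refine h2 (cv_injective ?_)
    exact sub_eq_zero.1 h) 0
  intro h0
  apply h
  rw [zt_fst hBM, zt_fst hBM] at h0
  simp only [Prod.fst_sub, Prod.snd_sub, mulVec_sub, Pi.sub_apply] at h0 ⊢
  linarith

/-- (C3), second half. -/
theorem onLine_of_mu_eq {k : Subfield ℝ} (hn : 2 ≤ n) {B : E n ≃ₗᵢ[ℝ] E n}
    {M : Matrix (Fin (n + 1)) (Fin (n + 1)) ℝ}
    (hBM : IsMat B M) (hM : PG k M) {s r r' : E n × E n} (hs : InK k (pv s))
    (hr : InK k (pv r)) (hr' : InK k (pv r')) (h0 : (zt B s).1 0 ≠ (zt B r).1 0)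
    (h0' : (zt B s).1 0 ≠ (zt B r').1 0)
    (hmu : mu (zt B s) (zt B r) = mu (zt B s) (zt B r')) : onLine s.1 r.1 r'.1 := by
  set a := (zt B s).1 0 - (zt B r).1 0 with ha
  set b := (zt B s).1 0 - (zt B r').1 0 with hb
  have ha0 : a ≠ 0 := sub_ne_zero.2 h0
  have hb0 : b ≠ 0 := sub_ne_zero.2 h0'
  have h1 : b • ((zt B s).1 - (zt B r).1) = a • ((zt B s).1 - (zt B r').1) := by
    ext i
    refine Fin.cases ?_ (fun j => ?_) i
    · simp only [Pi.smul_apply, Pi.sub_apply, smul_eq_mul]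
      rw [← ha, ← hb]; ring
    · have h2 := congrFun hmu j
      simp only [mu] at h2
      rw [← ha, ← hb, div_eq_div_iff ha0 hb0] at h2
      simp only [Pi.smul_apply, Pi.sub_apply, smul_eq_mul]
      linarith
  set S : Set (PV (n + 1)) := {pv s - pv r, pv s - pv r'} with hS
  have hSk : ∀ v ∈ S, InK k v := by
    intro v hv
    rcases hv with rfl | hv
    · exact InK_sub hs hr
    · rw [Set.mem_singleton_iff.1 hv]; exact InK_sub hs hr'
  have hfin : finrank ℝ (Submodule.span ℝ S) ≤ 2 := by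
    classical
    have : S = (({pv s - pv r, pv s - pv r'} : Finset (PV (n + 1))) : Set (PV (n + 1))) := by
      simp [hS]
    rw [this]
    exact (finrank_span_finset_le_card _).trans Finset.card_le_two
  have hTr := A1 hM S hSk (by omega) (Or.inl (by omega))
  set v : PV (n + 1) := b • (pv s - pv r) - a • (pv s - pv r') with hv
  have hvm : v ∈ Submodule.span ℝ S :=
    Submodule.sub_mem _ (Submodule.smul_mem _ _ (Submodule.subset_span (Or.inl rfl)))
      (Submodule.smul_mem _ _ (Submodule.subset_span (Or.inr rfl)))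
  have hv0 : v = 0 := by
    refine hTr v hvm ?_
    rw [zt_fst hBM, zt_fst hBM, zt_fst hBM] at h1
    have h3 : v.1 - M *ᵥ v.2 = 0 := by
      have h4 : v.1 - M *ᵥ v.2 =
          b • ((pv s).1 - M *ᵥ (pv s).2 - ((pv r).1 - M *ᵥ (pv r).2))
          - a • ((pv s).1 - M *ᵥ (pv s).2 - ((pv r').1 - M *ᵥ (pv r').2)) := by
        rw [hv]
        simp only [Prod.fst_sub, Prod.snd_sub, Prod.smul_fst, Prod.smul_snd, mulVec_sub,
          mulVec_smul, smul_sub]
        abel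
      rw [h4, h1, sub_self]
    exact sub_eq_zero.1 h3
  have h5 : b • (cv s.1 - cv r.1) = a • (cv s.1 - cv r'.1) := by
    have := congrArg Prod.fst hv0
    rw [hv] at this
    simpa [sub_eq_zero, pv] using this
  refine ⟨b / a, ?_⟩
  apply cv_injective
  ext i
  have h6 := congrFun h5 i
  simp only [Pi.smul_apply, Pi.sub_apply, smul_eq_mul, cv] at h6
  change r'.1 i = (s.1 + (b / a) • (r.1 - s.1)) i
  simp only [PiLp.add_apply, PiLp.smul_apply, PiLp.sub_apply, smul_eq_mul]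
  field_simp
  linarith

/-- Existence of the generic isometry of either determinant for a finite set of points. -/
theorem exists_generic_iso (k : Subfield ℝ) [Countable k] {e : ℝ} (he : e = 1 ∨ e = -1) :
    ∃ (B : E n ≃ₗᵢ[ℝ] E n) (M : Matrix (Fin (n + 1)) (Fin (n + 1)) ℝ), IsMat B M ∧ M.det = e ∧
      Gen k M ∧ PG k M ∧
      ∀ k' : Subfield ℝ, (∀ x ∈ k', ∀ D : Derivation k ℝ ℝ, D x = 0) → PG k' M := by
  obtain ⟨M, h1, h2, h3, h4⟩ := Vale.Agent.P054.T2.H588.exists_PG (d := n + 1) k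
    (Nat.succ_pos n) he
  obtain ⟨B, hB⟩ := exists_iso M h2.1
  exact ⟨B, M, hB, h1, ⟨h2.1, h3⟩, h2, h4⟩

/-- (C3) for the set `P`: the two hypotheses of `card_leaf_le`. -/
theorem leaf_hyps (hn : 2 ≤ n) (P : Finset (E n)) (C : ℕ) {B : E n ≃ₗᵢ[ℝ] E n}
    {M : Matrix (Fin (n + 1)) (Fin (n + 1)) ℝ} (hBM : IsMat B M) (hM : Gen (coordField P) M)
    (hM' : PG (coordField P) M) (s : E n × E n) :
    (∀ r, (s, r) ∈ H269.edges₀ P C → (zt B s).1 0 ≠ (zt B r).1 0) ∧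
    (∀ r r', (s, r) ∈ H269.edges₀ P C → (s, r') ∈ H269.edges₀ P C →
      mu (zt B s) (zt B r) = mu (zt B s) (zt B r') → onLine s.1 r.1 r'.1) := by
  obtain ⟨m, rfl⟩ : ∃ m, n = m + 1 := ⟨n - 1, by omega⟩
  have key : ∀ r, (s, r) ∈ H269.edges₀ P C → (zt B s).1 0 ≠ (zt B r).1 0 := by
    intro r hr
    have h1 := (H269.mem_edges₀.1 hr).1
    have h2 := mem_edges.1 h1
    exact zeta_zero_ne hBM hM (inK_of_mem h2.1.1.1 h2.1.1.2) (inK_of_mem h2.1.2.1 h2.1.2.2)
      (mem_edges_snd_ne h1)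
  refine ⟨key, fun r r' hr hr' hmu => ?_⟩
  have h2 := mem_edges.1 (H269.mem_edges₀.1 hr).1
  have h2' := mem_edges.1 (H269.mem_edges₀.1 hr').1
  exact onLine_of_mu_eq hn hBM hM' (inK_of_mem h2.1.1.1 h2.1.1.2)
    (inK_of_mem h2.1.2.1 h2.1.2.2) (inK_of_mem h2'.1.2.1 h2'.1.2.2) (key r hr) (key r' hr') hmu

end Vale.Agent.P054.T2.H416
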