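import Mathlib

/-!
Helper file for P054 (row A0): in characteristic zero every prescription of values on an
algebraically independent family extends to a derivation; algebraically independent families
over a countable subfield of the reals.
-/

namespace Vale.Agent.P054.T2.H416

open MvPolynomial

section ext

variable {k : Type*} {L : Type*} {κ : Type*} [Field k] [Field L] [CharZero k] [Algebra k L]

/-- Values on a transcendence basis can be prescribed. -/
theorem exists_derivation_basis (x : κ → L) (hx : IsTranscendenceBasis k x) (a : κ → L) :
    ∃ D : Derivation k L L, ∀ i, D (x i) = a i := by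
  classical
  let alg : Algebra (MvPolynomial κ k) L := (MvPolynomial.aeval x).toAlgebra
  have tow : IsScalarTower k (MvPolynomial κ k) L :=
    IsScalarTower.of_algebraMap_eq' (by
      ext r
      change algebraMap k L r = MvPolynomial.aeval x (algebraMap k (MvPolynomial κ k) r)
      simp)
  have halg : ∀ p : MvPolynomial κ k, algebraMap (MvPolynomial κ k) L p = MvPolynomial.aeval x p :=
    fun p => rfl
  have hinj : Function.Injective (algebraMap (MvPolynomial κ k) L) := hx.1
  have : FaithfulSMul (MvPolynomial κ k) L := (faithfulSMul_iff_algebraMap_injective _ _).2 hinj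
  let F := FractionRing (MvPolynomial κ k)
  let algF : Algebra F L := FractionRing.liftAlgebra (MvPolynomial κ k) L
  have towF : IsScalarTower (MvPolynomial κ k) F L := FractionRing.isScalarTower_liftAlgebra _ _
  have hS : Algebra.IsAlgebraic (MvPolynomial κ k) L := by
    rw [hx.isAlgebraic_iff]
    intro i
    have : x i = algebraMap (MvPolynomial κ k) L (X i) := by simp [halg]
    rw [this]
    exact isAlgebraic_algebraMap _
  have hF : Algebra.IsAlgebraic F L :=
    (IsFractionRing.comap_isAlgebraic_iff (A := MvPolynomial κ k) (K := F) (C := L)).1 hS
  have : CharZero F := charZero_of_injective_algebraMap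
    (R := k) (A := F) (algebraMap k F).injective
  have : Algebra.IsSeparable F L := inferInstance
  have : Algebra.FormallyEtale F L := Algebra.FormallyEtale.of_isSeparable F L
  have : Algebra.FormallyEtale (MvPolynomial κ k) F :=
    Algebra.FormallyEtale.of_isLocalization (nonZeroDivisors (MvPolynomial κ k))
  have : Algebra.FormallyEtale (MvPolynomial κ k) L :=
    Algebra.FormallyEtale.comp (MvPolynomial κ k) F L
  let e := KaehlerDifferential.tensorKaehlerEquivOfFormallyEtale k (MvPolynomial κ k) L
  let b := (KaehlerDifferential.mvPolynomialBasis k κ).baseChange L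
  let f : Ω[L⁄k] →ₗ[L] L := (b.constr L a).comp e.symm.toLinearMap
  refine ⟨f.compDer (KaehlerDifferential.D k L), fun i => ?_⟩
  have h1 : x i = algebraMap (MvPolynomial κ k) L (X i) := by simp [halg]
  have h2 : e.symm (KaehlerDifferential.D k L (algebraMap (MvPolynomial κ k) L (X i)))
      = 1 ⊗ₜ KaehlerDifferential.D k (MvPolynomial κ k) (X i) :=
    KaehlerDifferential.tensorKaehlerEquivOfFormallyEtale_symm_D_algebraMap k
      (MvPolynomial κ k) L (X i)
  change f (KaehlerDifferential.D k L (x i)) = a i
  rw [h1]
  change b.constr L a (e.symm _) = a i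
  rw [h2]
  have h3 : (1 : L) ⊗ₜ[MvPolynomial κ k] KaehlerDifferential.D k (MvPolynomial κ k) (X i)
      = b i := by
    simp [b]
  rw [h3, Module.Basis.constr_basis]

/-- Values on an algebraically independent family can be prescribed. -/
theorem exists_derivation (x : κ → L) (hx : AlgebraicIndependent k x) (a : κ → L) :
    ∃ D : Derivation k L L, ∀ i, D (x i) = a i := by
  classical
  obtain ⟨t, hst, ht⟩ := exists_isTranscendenceBasis_superset (s := Set.range x) hx.coe_range
  have hinj : Function.Injective x := hx.injective
  obtain ⟨D, hD⟩ := exists_derivation_basis (k := k) ((↑) : t → L) ht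
    (fun y => if h : ∃ i, x i = (y : L) then a h.choose else 0)
  refine ⟨D, fun i => ?_⟩
  have hm : x i ∈ t := hst ⟨i, rfl⟩
  have h1 := hD ⟨x i, hm⟩
  have h2 : ∃ j, x j = x i := ⟨i, rfl⟩
  have h3 : h2.choose = i := hinj h2.choose_spec
  simp only at h1
  rw [h1, dif_pos h2, h3]

end ext

section card

/-- Over a countable field, an uncountable extension field contains algebraically independent
families indexed by any countable type. -/
theorem exists_algebraicIndependent {k : Type*} {L : Type*} {κ : Type*} [Field k] [Field L]
    [Algebra k L] [Countable k] [Uncountable L] [Countable κ] :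
    ∃ x : κ → L, AlgebraicIndependent k x := by
  classical
  obtain ⟨s, hs⟩ := exists_isTranscendenceBasis k L
  have hunc : ¬ Countable s := by
    intro hc
    have h1 : Countable (MvPolynomial s k) := by
      have : Cardinal.mk (MvPolynomial s k) ≤ Cardinal.aleph0 := by
        have h := MvPolynomial.cardinalMk_le_max_lift (σ := s) (R := k)
        refine h.trans ?_
        simp only [max_le_iff]
        refine ⟨⟨?_, ?_⟩, le_refl _⟩
        · simp
        · simp
      exact Cardinal.mk_le_aleph0_iff.1 this
    have h2 : Countable (Algebra.adjoin k (Set.range ((↑) : s → L))) :=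
      hs.1.aevalEquiv.symm.toEquiv.injective.countable
    have := hs.isAlgebraic
    have h3 : Countable L := by
      have h := Algebra.IsAlgebraic.cardinalMk_le_max
        (Algebra.adjoin k (Set.range ((↑) : s → L))) L
      have h4 : Cardinal.mk (Algebra.adjoin k (Set.range ((↑) : s → L))) ≤ Cardinal.aleph0 :=
        Cardinal.mk_le_aleph0_iff.2 h2
      exact Cardinal.mk_le_aleph0_iff.1 (h.trans (max_le h4 le_rfl))
    exact not_countable h3
  have : Uncountable s := not_countable_iff.1 hunc
  have : Infinite s := inferInstance
  obtain ⟨f, hf⟩ := exists_injective_nat κ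
  exact ⟨fun i => ((Infinite.natEmbedding s (f i) : s) : L),
    hs.1.comp _ ((Infinite.natEmbedding s).injective.comp hf)⟩

end card

end Vale.Agent.P054.T2.H416
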