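import Vale.Agent.P054.T2.H416.Der

/-!
Helper file for P054 (row A0): over a countable subfield of the reals there are orthogonal
matrices of both determinants whose tangent directions are all realised by derivations.
-/

namespace Vale.Agent.P054.T2.H416

open Matrix

/-- A generic orthogonal matrix over `k`: every tangent direction is realised by a derivation
of the reals over `k`. -/
def Gen {d : ℕ} (k : Subfield ℝ) (A : Matrix (Fin d) (Fin d) ℝ) : Prop :=
  A * Aᵀ = 1 ∧ ∀ O : Matrix (Fin d) (Fin d) ℝ, Oᵀ = -O →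
    ∃ D : Derivation k ℝ ℝ, ∀ i j, D (A i j) = (A * O) i j

section der

variable {k : Type*} {L : Type*} [Field k] [Field L] [Algebra k L]
variable {n : Type*}

/-- Leibniz rule for matrices. -/
theorem map_der_mul [Fintype n] (D : Derivation k L L) (M N : Matrix n n L) :
    (M * N).map D = M.map D * N + M * N.map D := by
  ext i j
  simp only [map_apply, mul_apply, Matrix.add_apply, map_sum, Derivation.leibniz, smul_eq_mul]
  rw [← Finset.sum_add_distrib]
  refine Finset.sum_congr rfl fun x _ => ?_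
  ring

theorem map_der_add (D : Derivation k L L) (M N : Matrix n n L) :
    (M + N).map D = M.map D + N.map D := by
  ext i j
  simp

theorem map_der_sub (D : Derivation k L L) (M N : Matrix n n L) :
    (M - N).map D = M.map D - N.map D := by
  ext i j
  simp

theorem map_der_one [DecidableEq n] (D : Derivation k L L) : (1 : Matrix n n L).map D = 0 := by
  ext i j
  by_cases h : i = j
  · subst h; simp
  · simp [one_apply_ne h]

end der

section skew

variable {d : ℕ}

/-- The strictly upper triangular positions. -/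
abbrev Up (d : ℕ) := {p : Fin d × Fin d // p.1 < p.2}

/-- The skew matrix with prescribed upper part. -/
def skewOf (s : Up d → ℝ) : Matrix (Fin d) (Fin d) ℝ := fun i j =>
  if h : i < j then s ⟨(i, j), h⟩ else if h : j < i then -s ⟨(j, i), h⟩ else 0

theorem skewOf_transpose (s : Up d → ℝ) : (skewOf s)ᵀ = -skewOf s := by
  ext i j
  simp only [transpose_apply, Matrix.neg_apply, skewOf]
  rcases lt_trichotomy i j with h | h | h
  · rw [dif_neg (not_lt.2 h.le), dif_pos h, dif_pos h]
  · subst h; simp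
  · rw [dif_pos h, dif_neg (not_lt.2 h.le), dif_pos h, neg_neg]

theorem map_der_skewOf {k : Type*} [Field k] [Algebra k ℝ] (D : Derivation k ℝ ℝ)
    (s : Up d → ℝ) : (skewOf s).map D = skewOf (fun p => D (s p)) := by
  ext i j
  simp only [map_apply, skewOf]
  split_ifs <;> simp

theorem skewOf_upper (W : Matrix (Fin d) (Fin d) ℝ) (hW : Wᵀ = -W) :
    skewOf (fun p : Up d => W p.1.1 p.1.2) = W := by
  have h : ∀ i j, W j i = -W i j := fun i j => by
    have := congrFun (congrFun hW i) j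
    simpa using this
  ext i j
  simp only [skewOf]
  rcases lt_trichotomy i j with hij | hij | hij
  · rw [dif_pos hij]
  · subst hij
    have := h i i
    simp only [lt_self_iff_false, dite_false]
    linarith
  · rw [dif_neg (not_lt.2 hij.le), dif_pos hij, h i j, neg_neg]

/-- `1 + S` is invertible for a real skew matrix `S`. -/
theorem det_one_add_skew_ne {n : Type*} [Fintype n] [DecidableEq n] (S : Matrix n n ℝ)
    (hS : Sᵀ = -S) : (1 + S).det ≠ 0 := by
  intro h0
  obtain ⟨v, hv, hv0⟩ := exists_mulVec_eq_zero_iff.2 h0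
  have h1 : v ⬝ᵥ (S *ᵥ v) = 0 := by
    have h2 : v ⬝ᵥ (S *ᵥ v) = v ⬝ᵥ (Sᵀ *ᵥ v) := by
      rw [mulVec_transpose, dotProduct_mulVec, dotProduct_comm]
    rw [hS, neg_mulVec, dotProduct_neg] at h2
    linarith
  have h3 : v ⬝ᵥ ((1 + S) *ᵥ v) = 0 := by rw [hv0]; simp
  rw [add_mulVec, one_mulVec, dotProduct_add, h1, add_zero] at h3
  exact hv (dotProduct_self_eq_zero.1 h3)

end skew

section cayley

variable {n : Type*} [Fintype n] [DecidableEq n]

/-- Algebra of the Cayley transform. -/
theorem cayley_orth (A₀ S : Matrix n n ℝ) (h₀ : A₀ * A₀ᵀ = 1) (hS : Sᵀ = -S) :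
    (A₀ * (1 - S) * (1 + S)⁻¹) * (A₀ * (1 - S) * (1 + S)⁻¹)ᵀ = 1 := by
  have hu : IsUnit (1 + S).det := (det_one_add_skew_ne S hS).isUnit
  have hS' : (-S)ᵀ = -(-S) := by rw [transpose_neg, hS]
  have hu' : IsUnit (1 - S).det := by
    have := det_one_add_skew_ne (-S) hS'
    rw [← sub_eq_add_neg] at this
    exact this.isUnit
  have ht : (1 + S)ᵀ = 1 - S := by rw [transpose_add, hS, transpose_one, sub_eq_add_neg]
  have ht' : (1 - S)ᵀ = 1 + S := by
    rw [transpose_sub, hS, transpose_one, sub_neg_eq_add]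
  have hc : (1 + S) * (1 - S) = (1 - S) * (1 + S) := by noncomm_ring
  rw [transpose_mul, transpose_mul, transpose_nonsing_inv, ht, ht']
  have h1 : (1 + S)⁻¹ * (1 - S)⁻¹ = (1 - S)⁻¹ * (1 + S)⁻¹ := by
    rw [← Matrix.mul_inv_rev, ← Matrix.mul_inv_rev, hc]
  calc A₀ * (1 - S) * (1 + S)⁻¹ * ((1 - S)⁻¹ * ((1 + S) * A₀ᵀ))
      = A₀ * (1 - S) * ((1 + S)⁻¹ * (1 - S)⁻¹) * (1 + S) * A₀ᵀ := by
        simp only [Matrix.mul_assoc]
    _ = A₀ * ((1 - S) * (1 - S)⁻¹) * ((1 + S)⁻¹ * (1 + S)) * A₀ᵀ := by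
        rw [h1]; simp only [Matrix.mul_assoc]
    _ = 1 := by
        rw [mul_nonsing_inv _ hu', nonsing_inv_mul _ hu, Matrix.mul_one, Matrix.mul_one, h₀]

theorem cayley_det (A₀ S : Matrix n n ℝ) (hS : Sᵀ = -S) :
    (A₀ * (1 - S) * (1 + S)⁻¹).det = A₀.det := by
  have hu := det_one_add_skew_ne S hS
  have ht : (1 + S)ᵀ = 1 - S := by rw [transpose_add, hS, transpose_one, sub_eq_add_neg]
  have hd : (1 - S).det = (1 + S).det := by rw [← ht, det_transpose]
  rw [det_mul, det_mul, hd, det_nonsing_inv, Ring.inverse_eq_inv', mul_assoc,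
    mul_inv_cancel₀ hu, mul_one]

/-- The derivative of the Cayley transform. -/
theorem cayley_der {k : Type*} [Field k] [Algebra k ℝ] (D : Derivation k ℝ ℝ)
    (A₀ S O : Matrix n n ℝ) (hA₀ : A₀.map D = 0) (hS : Sᵀ = -S)
    (hD : S.map D = (-(1 / 2) : ℝ) • ((1 - S) * O * (1 + S))) :
    (A₀ * (1 - S) * (1 + S)⁻¹).map D = A₀ * (1 - S) * (1 + S)⁻¹ * O := by
  have hu : IsUnit (1 + S).det := (det_one_add_skew_ne S hS).isUnit
  set A := A₀ * (1 - S) * (1 + S)⁻¹ with hA
  have h1 : A * (1 + S) = A₀ * (1 - S) := by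
    rw [hA, Matrix.mul_assoc, nonsing_inv_mul _ hu, Matrix.mul_one]
  have h2 := congrArg (fun M => M.map D) h1
  simp only [map_der_mul, map_der_add, map_der_sub, map_der_one, hA₀, zero_add, zero_sub,
    Matrix.zero_mul] at h2
  have h3 : (A₀ + A) * (1 + S) = (2 : ℝ) • A₀ := by
    rw [Matrix.add_mul, h1]
    rw [two_smul]
    noncomm_ring
  have h4 : (A₀ + A) * (1 - S) = (2 : ℝ) • A := by
    have h5 : (A₀ + A) * (1 - S) * (1 + S) = (2 : ℝ) • A * (1 + S) := by
      have hc : (1 - S) * (1 + S) = (1 + S) * (1 - S) := by noncomm_ring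
      rw [Matrix.mul_assoc, hc, ← Matrix.mul_assoc, h3, Matrix.smul_mul, Matrix.smul_mul, h1]
    have h6 := congrArg (fun M => M * (1 + S)⁻¹) h5
    simp only [Matrix.mul_assoc, mul_nonsing_inv _ hu, Matrix.mul_one] at h6
    exact h6
  have h7 : A.map D * (1 + S) = A * O * (1 + S) := by
    have h8 : A.map D * (1 + S) = -((A₀ + A) * S.map D) := by
      rw [Matrix.add_mul]
      rw [Matrix.mul_neg] at h2
      rw [neg_add, ← h2]
      abel
    rw [h8, hD, Matrix.mul_smul, ← Matrix.mul_assoc, ← Matrix.mul_assoc, h4, Matrix.smul_mul,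
      Matrix.smul_mul, smul_smul]
    norm_num
  have h9 := congrArg (fun M => M * (1 + S)⁻¹) h7
  simpa only [Matrix.mul_assoc, mul_nonsing_inv _ hu, Matrix.mul_one] using h9

end cayley

/-- Existence of generic orthogonal matrices, field version. -/
theorem exists_generic {k : Type*} [Field k] [Algebra k ℝ] [Countable k] {d : ℕ}
    (A₀ : Matrix (Fin d) (Fin d) ℝ) (h₀ : A₀ * A₀ᵀ = 1)
    (hk : ∀ i j, A₀ i j ∈ Set.range (algebraMap k ℝ)) :
    ∃ A : Matrix (Fin d) (Fin d) ℝ, A * Aᵀ = 1 ∧ A.det = A₀.det ∧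
      ∀ O : Matrix (Fin d) (Fin d) ℝ, Oᵀ = -O →
        ∃ D : Derivation k ℝ ℝ, ∀ i j, D (A i j) = (A * O) i j := by
  have : CharZero k := (algebraMap k ℝ).charZero
  obtain ⟨s, hs⟩ := exists_algebraicIndependent (k := k) (L := ℝ) (κ := Up d)
  have hS := skewOf_transpose s
  refine ⟨A₀ * (1 - skewOf s) * (1 + skewOf s)⁻¹, cayley_orth A₀ _ h₀ hS,
    cayley_det A₀ _ hS, fun O hO => ?_⟩
  set W : Matrix (Fin d) (Fin d) ℝ :=
    (-(1 / 2) : ℝ) • ((1 - skewOf s) * O * (1 + skewOf s)) with hW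
  have hWt : Wᵀ = -W := by
    rw [hW, transpose_smul, transpose_mul, transpose_mul, transpose_add, transpose_sub, hS,
      transpose_one, hO, sub_neg_eq_add, ← smul_neg]
    congr 1
    noncomm_ring
  obtain ⟨D, hD⟩ := exists_derivation (k := k) s hs (fun p => W p.1.1 p.1.2)
  have hDS : (skewOf s).map D = W := by
    rw [map_der_skewOf]
    simp only [hD]
    exact skewOf_upper W hWt
  have hA₀ : A₀.map D = 0 := by
    ext i j
    obtain ⟨r, hr⟩ := hk i j
    simp [← hr]
  refine ⟨D, fun i j => ?_⟩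
  have := cayley_der D A₀ (skewOf s) O hA₀ hS hDS
  exact congrFun (congrFun this i) j

/-- The diagonal matrix with determinant `e`. -/
def signMat (d : ℕ) (e : ℝ) : Matrix (Fin (d + 1)) (Fin (d + 1)) ℝ :=
  diagonal (fun i => if i = 0 then e else 1)

theorem signMat_det (d : ℕ) (e : ℝ) : (signMat d e).det = e := by
  simp [signMat, det_diagonal, Finset.prod_ite_eq']

theorem signMat_orth (d : ℕ) (e : ℝ) (he : e = 1 ∨ e = -1) :
    signMat d e * (signMat d e)ᵀ = 1 := by
  rw [signMat, diagonal_transpose, diagonal_mul_diagonal, ← diagonal_one]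
  congr 1
  ext i
  rcases he with rfl | rfl <;> by_cases h : i = 0 <;> simp [h]

/-- Row (A0): existence of generic orthogonal matrices of either determinant. -/
theorem exists_gen (k : Subfield ℝ) [Countable k] (d : ℕ) (e : ℝ) (he : e = 1 ∨ e = -1) :
    ∃ A : Matrix (Fin (d + 1)) (Fin (d + 1)) ℝ, Gen k A ∧ A.det = e := by
  obtain ⟨A, h1, h2, h3⟩ := exists_generic (k := k) (signMat d e) (signMat_orth d e he)
    (fun i j => by
      by_cases hij : i = j
      · subst hij
        by_cases hi : i = 0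
        · rcases he with rfl | rfl
          · exact ⟨1, by simp [signMat]⟩
          · exact ⟨-1, by simp [signMat, hi]⟩
        · exact ⟨1, by simp [signMat, hi]⟩
      · exact ⟨0, by simp [signMat, hij]⟩)
  exact ⟨A, ⟨h1, h3⟩, by rw [h2, signMat_det]⟩

end Vale.Agent.P054.T2.H416
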