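import Vale.Agent.P054.T2.H416.Gen

/-!
Helper file for P054 (rows A1, A2, A3): subspaces defined over the constants against the graph
of a generic orthogonal matrix.
-/

namespace Vale.Agent.P054.T2.H416

open Matrix Module

variable {d : ℕ}

/-- Pairs of vectors. -/
abbrev VV (d : ℕ) := (Fin d → ℝ) × (Fin d → ℝ)

section dv

variable {k : Type*} [Field k] [Algebra k ℝ]

/-- Entrywise application of a derivation. -/
def dv (D : Derivation k ℝ ℝ) (x : Fin d → ℝ) : Fin d → ℝ := fun i => D (x i)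

theorem dv_apply (D : Derivation k ℝ ℝ) (x : Fin d → ℝ) (i : Fin d) : dv D x i = D (x i) := rfl

theorem dv_zero (D : Derivation k ℝ ℝ) : dv D (0 : Fin d → ℝ) = 0 := by
  ext i; simp [dv]

theorem dv_add (D : Derivation k ℝ ℝ) (x y : Fin d → ℝ) : dv D (x + y) = dv D x + dv D y := by
  ext i; simp [dv]

theorem dv_smul (D : Derivation k ℝ ℝ) (c : ℝ) (x : Fin d → ℝ) :
    dv D (c • x) = c • dv D x + D c • x := by
  ext i
  simp only [dv, Pi.smul_apply, smul_eq_mul, Derivation.leibniz, Pi.add_apply]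
  ring

theorem dv_dot (D : Derivation k ℝ ℝ) (x y : Fin d → ℝ) :
    D (x ⬝ᵥ y) = dv D x ⬝ᵥ y + x ⬝ᵥ dv D y := by
  simp only [dotProduct, map_sum, Derivation.leibniz, smul_eq_mul, dv]
  rw [← Finset.sum_add_distrib]
  refine Finset.sum_congr rfl fun i _ => ?_
  ring

theorem dv_mulVec (D : Derivation k ℝ ℝ) (M : Matrix (Fin d) (Fin d) ℝ) (x : Fin d → ℝ) :
    dv D (M *ᵥ x) = M.map D *ᵥ x + M *ᵥ dv D x := by
  ext i
  simp only [dv, mulVec, dotProduct, map_sum, Derivation.leibniz, smul_eq_mul, Pi.add_apply,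
    map_apply]
  rw [← Finset.sum_add_distrib]
  refine Finset.sum_congr rfl fun j _ => ?_
  ring

end dv

/-- Stability under all derivations over `k`. -/
def Stab (k : Subfield ℝ) (V : Submodule ℝ (VV d)) : Prop :=
  ∀ D : Derivation k ℝ ℝ, ∀ v ∈ V, (dv D v.1, dv D v.2) ∈ V

/-- The orthogonal space for the form `|x|^2 - |y|^2`. -/
def orthQ (V : Submodule ℝ (VV d)) : Submodule ℝ (VV d) where
  carrier := {u | ∀ v ∈ V, u.1 ⬝ᵥ v.1 = u.2 ⬝ᵥ v.2}
  add_mem' := by
    intro a b ha hb v hv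
    simp only [Prod.fst_add, Prod.snd_add, add_dotProduct, ha v hv, hb v hv]
  zero_mem' := by
    intro v _
    simp
  smul_mem' := by
    intro c a ha v hv
    simp only [Prod.smul_fst, Prod.smul_snd, smul_dotProduct, ha v hv]

theorem mem_orthQ {V : Submodule ℝ (VV d)} {u : VV d} :
    u ∈ orthQ V ↔ ∀ v ∈ V, u.1 ⬝ᵥ v.1 = u.2 ⬝ᵥ v.2 := Iff.rfl

theorem stab_span {k : Subfield ℝ} (T : Set (VV d))
    (hT : ∀ v ∈ T, ∀ D : Derivation k ℝ ℝ, dv D v.1 = 0 ∧ dv D v.2 = 0) :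
    Stab k (Submodule.span ℝ T) := by
  intro D v hv
  induction hv using Submodule.span_induction with
  | mem x hx =>
    rw [(hT x hx D).1, (hT x hx D).2]
    exact Submodule.zero_mem _
  | zero =>
    have : ((dv D (0 : VV d).1, dv D (0 : VV d).2) : VV d) = 0 := by
      rw [Prod.fst_zero, Prod.snd_zero, dv_zero]; rfl
    rw [this]
    exact Submodule.zero_mem _
  | add x y _ _ hx hy =>
    have : ((dv D (x + y).1, dv D (x + y).2) : VV d)
        = (dv D x.1, dv D x.2) + (dv D y.1, dv D y.2) := by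
      rw [Prod.fst_add, Prod.snd_add, dv_add, dv_add]; rfl
    rw [this]
    exact Submodule.add_mem _ hx hy
  | smul c x hxs hx =>
    have : ((dv D (c • x).1, dv D (c • x).2) : VV d)
        = c • ((dv D x.1, dv D x.2) : VV d) + D c • x := by
      rw [Prod.smul_fst, Prod.smul_snd, dv_smul, dv_smul]; rfl
    rw [this]
    exact Submodule.add_mem _ (Submodule.smul_mem _ _ hx) (Submodule.smul_mem _ _ hxs)

theorem dv_eq_zero_of_mem {k : Subfield ℝ} (D : Derivation k ℝ ℝ) (x : Fin d → ℝ)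
    (hx : ∀ i, x i ∈ k) : dv D x = 0 := by
  ext i
  have : x i = algebraMap k ℝ ⟨x i, hx i⟩ := rfl
  rw [dv_apply, this, Derivation.map_algebraMap]
  rfl

/-- Spans of vectors with coordinates in `k` are stable. -/
theorem stab_span_of_mem {k : Subfield ℝ} (T : Set (VV d))
    (hT : ∀ v ∈ T, (∀ i, v.1 i ∈ k) ∧ ∀ i, v.2 i ∈ k) : Stab k (Submodule.span ℝ T) :=
  stab_span T fun v hv D => ⟨dv_eq_zero_of_mem D _ (hT v hv).1, dv_eq_zero_of_mem D _ (hT v hv).2⟩

theorem Stab.orthQ {k : Subfield ℝ} {V : Submodule ℝ (VV d)} (hV : Stab k V) :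
    Stab k (orthQ V) := by
  intro D u hu v hv
  have h1 := hu v hv
  have h2 := congrArg D h1
  rw [dv_dot, dv_dot] at h2
  have h3 := hu _ (hV D v hv)
  simp only at h3 ⊢
  linarith

theorem Stab.inf {k : Subfield ℝ} {V W : Submodule ℝ (VV d)} (hV : Stab k V) (hW : Stab k W) :
    Stab k (V ⊓ W) := fun D v hv => ⟨hV D v hv.1, hW D v hv.2⟩

section key

variable {k : Subfield ℝ} {A : Matrix (Fin d) (Fin d) ℝ}

theorem Gen.tmul (hA : Gen k A) : Aᵀ * A = 1 := mul_eq_one_comm.1 hA.1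

theorem dot_mulVec_mulVec {M : Matrix (Fin d) (Fin d) ℝ} (hM : Mᵀ * M = 1) (x y : Fin d → ℝ) :
    (M *ᵥ x) ⬝ᵥ (M *ᵥ y) = x ⬝ᵥ y := by
  rw [← mulVec_transpose_dot M x (M *ᵥ y), mulVec_mulVec, hM, one_mulVec]
where
  mulVec_transpose_dot (M : Matrix (Fin d) (Fin d) ℝ) (x z : Fin d → ℝ) :
      x ⬝ᵥ (Mᵀ *ᵥ z) = (M *ᵥ x) ⬝ᵥ z := by
    rw [dotProduct_mulVec, vecMul_transpose]

/-- The derivation with prescribed skew direction, in vector form. -/
theorem Gen.exists_der (hA : Gen k A) (O : Matrix (Fin d) (Fin d) ℝ) (hO : Oᵀ = -O) :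
    ∃ D : Derivation k ℝ ℝ, A.map D = A * O := by
  obtain ⟨D, hD⟩ := hA.2 O hO
  exact ⟨D, by ext i j; exact hD i j⟩

/-- Elementary skew matrices. -/
theorem skew_vec (u v : Fin d → ℝ) :
    (vecMulVec u v - vecMulVec v u)ᵀ = -(vecMulVec u v - vecMulVec v u) := by
  ext i j
  simp only [transpose_apply, Matrix.sub_apply, vecMulVec_apply, Matrix.neg_apply]
  ring

theorem skew_vec_mulVec (u v x : Fin d → ℝ) :
    (vecMulVec u v - vecMulVec v u) *ᵥ x = (v ⬝ᵥ x) • u - (u ⬝ᵥ x) • v := by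
  ext i
  simp only [mulVec, dotProduct, Matrix.sub_apply, vecMulVec_apply, Pi.sub_apply, Pi.smul_apply,
    smul_eq_mul, sub_mul, Finset.sum_sub_distrib, Finset.sum_mul]
  congr 1 <;> refine Finset.sum_congr rfl fun j _ => ?_ <;> ring

/-- The basic derivation argument. -/
theorem key (hA : Gen k A) {V : Submodule ℝ (VV d)} (hV : Stab k V) {x : Fin d → ℝ}
    (hx : x ≠ 0) (hxV : (x, A *ᵥ x) ∈ V) {c : Fin d → ℝ}
    (hc : ∀ v ∈ V, c ⬝ᵥ v.1 = (A *ᵥ c) ⬝ᵥ v.2) : ∃ l : ℝ, c = l • x := by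
  have h1 : ∀ O : Matrix (Fin d) (Fin d) ℝ, Oᵀ = -O → c ⬝ᵥ (O *ᵥ x) = 0 := by
    intro O hO
    obtain ⟨D, hD⟩ := hA.exists_der O hO
    have h2 := hc _ (hV D _ hxV)
    simp only at h2
    rw [dv_mulVec, hD, ← mulVec_mulVec, dotProduct_add, dot_mulVec_mulVec hA.tmul,
      dot_mulVec_mulVec hA.tmul] at h2
    linarith
  have hxx : x ⬝ᵥ x ≠ 0 := fun h => hx (dotProduct_self_eq_zero.1 h)
  refine ⟨(c ⬝ᵥ x) / (x ⬝ᵥ x), ?_⟩
  have h3 : ∀ u : Fin d → ℝ, (x ⬝ᵥ x) * (c ⬝ᵥ u) = (u ⬝ᵥ x) * (c ⬝ᵥ x) := by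
    intro u
    have h4 := h1 _ (skew_vec u x)
    rw [skew_vec_mulVec, dotProduct_sub, dotProduct_smul, dotProduct_smul, smul_eq_mul,
      smul_eq_mul] at h4
    linarith
  ext i
  have h5 := h3 (Pi.single i 1)
  rw [dotProduct_single, mul_one, single_dotProduct, one_mul] at h5
  rw [Pi.smul_apply, smul_eq_mul]
  field_simp
  linarith

/-- Intersection with the graph. -/
def KK (A : Matrix (Fin d) (Fin d) ℝ) (V : Submodule ℝ (VV d)) : Submodule ℝ (Fin d → ℝ) :=
  V.comap (LinearMap.prod LinearMap.id (toLin' A))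

theorem mem_KK {V : Submodule ℝ (VV d)} {x : Fin d → ℝ} : x ∈ KK A V ↔ (x, A *ᵥ x) ∈ V := by
  simp [KK]

/-- Common annihilator. -/
def WW (A : Matrix (Fin d) (Fin d) ℝ) (V : Submodule ℝ (VV d)) : Submodule ℝ (Fin d → ℝ) where
  carrier := {c | ∀ v ∈ V, c ⬝ᵥ v.1 = (A *ᵥ c) ⬝ᵥ v.2}
  add_mem' := by
    intro a b ha hb v hv
    rw [mulVec_add, add_dotProduct, add_dotProduct, ha v hv, hb v hv]
  zero_mem' := by
    intro v _
    simp
  smul_mem' := by
    intro c a ha v hv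
    rw [mulVec_smul, smul_dotProduct, smul_dotProduct, ha v hv]

theorem mem_WW {V : Submodule ℝ (VV d)} {c : Fin d → ℝ} :
    c ∈ WW A V ↔ ∀ v ∈ V, c ⬝ᵥ v.1 = (A *ᵥ c) ⬝ᵥ v.2 := Iff.rfl

/-- Dimension count. -/
theorem dim_count (hA : Aᵀ * A = 1) (V : Submodule ℝ (VV d)) :
    d + finrank ℝ (KK A V) ≤ finrank ℝ V + finrank ℝ (WW A V) := by
  classical
  let p : VV d →ₗ[ℝ] (Fin d → ℝ) :=
    LinearMap.fst ℝ _ _ - (toLin' Aᵀ).comp (LinearMap.snd ℝ _ _)
  have hp : ∀ v : VV d, p v = v.1 - Aᵀ *ᵥ v.2 := fun v => by simp [p]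
  let q : V →ₗ[ℝ] (Fin d → ℝ) := p.comp V.subtype
  have hrn := LinearMap.finrank_range_add_finrank_ker q
  have hK : finrank ℝ (KK A V) ≤ finrank ℝ (LinearMap.ker q) := by
    let f : KK A V →ₗ[ℝ] LinearMap.ker q :=
      { toFun := fun x => ⟨⟨(x.1, A *ᵥ x.1), mem_KK.1 x.2⟩, by
          rw [LinearMap.mem_ker]
          change p (x.1, A *ᵥ x.1) = 0
          rw [hp]
          simp only [mulVec_mulVec, hA, one_mulVec, sub_self]⟩
        map_add' := fun x y => by
          ext i <;> simp [mulVec_add]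
        map_smul' := fun c x => by
          ext i <;> simp [mulVec_smul] }
    have hf : Function.Injective f := by
      intro x y hxy
      have := congrArg (fun z : LinearMap.ker q => (z : V).1.1) hxy
      exact Subtype.ext this
    exact LinearMap.finrank_le_finrank_of_injective hf
  have hW : finrank ℝ (WW A V) = finrank ℝ (LinearMap.range q).dualAnnihilator := by
    have : WW A V = (LinearMap.range q).dualAnnihilator.comap
        (dotProductEquiv ℝ (Fin d)).toLinearMap := by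
      ext c
      rw [mem_WW, Submodule.mem_comap, Submodule.mem_dualAnnihilator]
      constructor
      · rintro h _ ⟨v, rfl⟩
        have h1 := h v v.2
        change c ⬝ᵥ (p v.1) = 0
        rw [hp, dotProduct_sub, h1, sub_eq_zero, dotProduct_mulVec, vecMul_transpose]
      · intro h v hv
        have h1 := h (q ⟨v, hv⟩) ⟨⟨v, hv⟩, rfl⟩
        change c ⬝ᵥ (p v) = 0 at h1
        rw [hp, dotProduct_sub, sub_eq_zero, dotProduct_mulVec, vecMul_transpose] at h1
        exact h1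
    rw [this]
    exact LinearEquiv.finrank_eq
      ((dotProductEquiv ℝ (Fin d)).ofSubmodule' (LinearMap.range q).dualAnnihilator)
  have h3 := Subspace.finrank_add_finrank_dualAnnihilator_eq (LinearMap.range q)
  rw [finrank_fin_fun] at h3
  omega

/-- A subspace contained in a line has dimension at most one. -/
theorem finrank_le_one_of_line {E : Type*} [AddCommGroup E] [Module ℝ E] (W : Submodule ℝ E)
    (x : E) (h : ∀ c ∈ W, ∃ l : ℝ, c = l • x) : finrank ℝ W ≤ 1 := by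
  have h1 : W ≤ Submodule.span ℝ {x} := by
    intro c hc
    obtain ⟨l, rfl⟩ := h c hc
    exact Submodule.smul_mem _ _ (Submodule.mem_span_singleton_self x)
  refine (Submodule.finrank_mono h1).trans ?_
  exact (finrank_span_le_card ({x} : Set E)).trans (by simp)

theorem finrank_pos_of_ne {W : Submodule ℝ (Fin d → ℝ)} {x : Fin d → ℝ} (hx : x ≠ 0)
    (h : x ∈ W) : 1 ≤ finrank ℝ W := by
  rw [Nat.one_le_iff_ne_zero]
  intro h0
  rw [Submodule.finrank_eq_zero] at h0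
  rw [h0] at h
  exact hx h

/-- Row (A1), small dimension. -/
theorem a1_small (hA : Gen k A) {V : Submodule ℝ (VV d)} (hV : Stab k V)
    (hd : finrank ℝ V < d) {x : Fin d → ℝ} (hxV : (x, A *ᵥ x) ∈ V) : x = 0 := by
  by_contra hx
  have h1 := dim_count hA.tmul V
  have h2 : finrank ℝ (WW A V) ≤ 1 := finrank_le_one_of_line _ x fun c hc => key hA hV hx hxV hc
  have h3 := finrank_pos_of_ne hx (mem_KK.2 hxV)
  omega

/-- Row (A1), middle dimension: a point of the intersection is in the radical. -/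
theorem a1_rad (hA : Gen k A) {V : Submodule ℝ (VV d)} (hV : Stab k V)
    (hd : finrank ℝ V ≤ d) {x : Fin d → ℝ} (hxV : (x, A *ᵥ x) ∈ V) :
    (x, A *ᵥ x) ∈ orthQ V := by
  by_cases hx : x = 0
  · subst hx
    rw [mulVec_zero]
    exact Submodule.zero_mem _
  have h1 := dim_count hA.tmul V
  have h3 := finrank_pos_of_ne hx (mem_KK.2 hxV)
  have h4 : WW A V ≠ ⊥ := by
    intro h
    rw [h, finrank_bot] at h1
    omega
  obtain ⟨c, hc, hc0⟩ := Submodule.exists_mem_ne_zero_of_ne_bot h4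
  obtain ⟨l, hl⟩ := key hA hV hx hxV hc
  have hl0 : l ≠ 0 := by
    rintro rfl
    exact hc0 (by rw [hl, zero_smul])
  intro v hv
  have h5 := hc v hv
  rw [hl, mulVec_smul, smul_dotProduct, smul_dotProduct, smul_eq_mul, smul_eq_mul] at h5
  exact mul_left_cancel₀ hl0 h5

/-- Row (A1). -/
theorem a1 (hA : Gen k A) {V : Submodule ℝ (VV d)} (hV : Stab k V) (hd : finrank ℝ V ≤ d)
    (hQ : finrank ℝ V < d ∨ ∃ v ∈ V, v.1 ⬝ᵥ v.1 ≠ v.2 ⬝ᵥ v.2) {x : Fin d → ℝ}
    (hxV : (x, A *ᵥ x) ∈ V) : x = 0 := by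
  rcases hQ with h | ⟨v, hv, hne⟩
  · exact a1_small hA hV h hxV
  · refine a1_small hA (hV.inf hV.orthQ) ?_ ⟨hxV, a1_rad hA hV hd hxV⟩
    refine lt_of_lt_of_le (Submodule.finrank_lt_finrank_of_lt ?_) hd
    refine lt_of_le_of_ne inf_le_left fun h => ?_
    have h1 : v ∈ V ⊓ orthQ V := by rw [h]; exact hv
    exact hne (h1.2 v hv)

/-- A stable isotropic subspace of the middle dimension is the graph of a constant orthogonal
matrix. -/
theorem exists_graph {V : Submodule ℝ (VV d)} (hV : Stab k V) (hd : finrank ℝ V = d)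
    (hQ : ∀ v ∈ V, v.1 ⬝ᵥ v.1 = v.2 ⬝ᵥ v.2) :
    ∃ h : Matrix (Fin d) (Fin d) ℝ, hᵀ * h = 1 ∧ (∀ v, v ∈ V ↔ v.2 = h *ᵥ v.1) ∧
      ∀ D : Derivation k ℝ ℝ, h.map D = 0 := by
  classical
  let f : V →ₗ[ℝ] (Fin d → ℝ) := (LinearMap.fst ℝ _ _).comp V.subtype
  have hf : Function.Injective f := by
    rw [injective_iff_map_eq_zero]
    intro v hv
    have h1 : v.1.1 = 0 := hv
    have h2 := hQ v.1 v.2
    rw [h1, dotProduct_zero] at h2
    have h3 : v.1.2 = 0 := dotProduct_self_eq_zero.1 h2.symm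
    exact Subtype.ext (Prod.ext h1 h3)
  let e : V ≃ₗ[ℝ] (Fin d → ℝ) := LinearEquiv.ofInjectiveOfFinrankEq f hf (by
    rw [hd, finrank_fin_fun])
  have he : ∀ v : V, e v = v.1.1 := fun v => rfl
  let g : (Fin d → ℝ) →ₗ[ℝ] (Fin d → ℝ) :=
    (LinearMap.snd ℝ _ _).comp (V.subtype.comp e.symm.toLinearMap)
  have hg : ∀ v : V, g v.1.1 = v.1.2 := fun v => by
    change ((e.symm (v.1.1)) : V).1.2 = v.1.2
    rw [← he v, LinearEquiv.symm_apply_apply]
  have hmem : ∀ x, (x, g x) ∈ V := fun x => by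
    have h1 : (((e.symm x) : V).1.1) = x := by rw [← he, LinearEquiv.apply_symm_apply]
    have h2 : (x, g x) = ((e.symm x) : V).1 := Prod.ext h1.symm rfl
    rw [h2]
    exact (e.symm x).2
  set h := LinearMap.toMatrix' g with hh
  have hgh : ∀ x, h *ᵥ x = g x := fun x => by
    rw [hh, ← toLin'_apply, toLin'_toMatrix']
  have hiff : ∀ v : VV d, v ∈ V ↔ v.2 = h *ᵥ v.1 := by
    intro v
    rw [hgh]
    constructor
    · intro hv
      exact (hg ⟨v, hv⟩).symm
    · intro hv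
      have := hmem v.1
      rw [← hv] at this
      exact this
  refine ⟨h, ?_, hiff, ?_⟩
  · have h1 : ∀ x, x ⬝ᵥ x = (h *ᵥ x) ⬝ᵥ (h *ᵥ x) := fun x =>
      hQ (x, h *ᵥ x) ((hiff _).2 rfl)
    have h2 : ∀ x y, (h *ᵥ x) ⬝ᵥ (h *ᵥ y) = x ⬝ᵥ y := by
      intro x y
      have h3 := h1 (x + y)
      have h4 := h1 x
      have h5 := h1 y
      rw [mulVec_add, add_dotProduct, add_dotProduct, dotProduct_add, dotProduct_add,
        dotProduct_add, dotProduct_add, dotProduct_comm y x,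
        dotProduct_comm (h *ᵥ y) (h *ᵥ x)] at h3
      linarith
    ext i j
    have h3 := h2 (Pi.single i 1) (Pi.single j 1)
    rw [mulVec_single_one, mulVec_single_one, dotProduct_single, mul_one] at h3
    rw [mul_apply]
    change ∑ l, h l i * h l j = _
    change ∑ l, h l i * h l j = _ at h3
    rw [h3, Matrix.one_apply, Pi.single_apply]
    simp only [eq_comm]
  · intro D
    ext i j
    have h1 : ((Pi.single j 1 : Fin d → ℝ), h *ᵥ (Pi.single j 1 : Fin d → ℝ)) ∈ V :=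
      (hiff _).2 rfl
    have h2 := (hiff _).1 (hV D _ h1)
    simp only at h2
    have h3 : dv D (Pi.single j 1 : Fin d → ℝ) = 0 := by
      ext l
      rw [dv_apply]
      by_cases hl : l = j
      · subst hl; simp
      · simp [hl]
    rw [h3, mulVec_zero, mulVec_single_one] at h2
    exact congrFun h2 i

/-- Uniqueness of the common direction of a generic matrix and a constant orthogonal matrix. -/
theorem fix_unique (hA : Gen k A) {h : Matrix (Fin d) (Fin d) ℝ} (hh : hᵀ * h = 1)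
    (hD : ∀ D : Derivation k ℝ ℝ, h.map D = 0) {x c : Fin d → ℝ} (hx : x ≠ 0)
    (hxA : h *ᵥ x = A *ᵥ x) (hcA : h *ᵥ c = A *ᵥ c) : ∃ l : ℝ, c = l • x := by
  let V : Submodule ℝ (VV d) := LinearMap.range (LinearMap.prod LinearMap.id (toLin' h))
  have hVm : ∀ v, v ∈ V ↔ v.2 = h *ᵥ v.1 := by
    intro v
    constructor
    · rintro ⟨y, rfl⟩
      simp
    · intro hv
      exact ⟨v.1, Prod.ext rfl (by simp [hv])⟩
  have hV : Stab k V := by
    intro D v hv
    rw [hVm] at hv ⊢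
    simp only
    rw [hv, dv_mulVec, hD D, zero_mulVec, zero_add]
  refine key hA hV hx ((hVm _).2 hxA.symm) fun v hv => ?_
  rw [(hVm v).1 hv, ← hcA, dot_mulVec_mulVec hh]

end key

end Vale.Agent.P054.T2.H416
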